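import Vale.Agent.P075.R.Defs
import Mathlib

/-!
# P075, Question 1, block COMB: from the discrete bound to the truncated kernel
-/

namespace Vale.Agent.P075.R.H220

open MeasureTheory Filter Topology Vale.Agent.P075 Vale.Agent.P075.R Set

theorem cc_smul {c : ℝ} {G : ℝ × ℝ → ℝ} (hG : CC G) : CC fun p => c * G p :=
  ⟨continuous_const.mul hG.1, hG.2.mul_left⟩

theorem I3_nonneg (G : ℝ × ℝ → ℝ) : 0 ≤ I3 G :=
  integral_nonneg fun p => by positivity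

theorem I3_smul {c : ℝ} (hc : 0 ≤ c) (G : ℝ × ℝ → ℝ) : I3 (fun p => c * G p) = c ^ 3 * I3 G := by
  unfold I3
  rw [← integral_const_mul]
  refine integral_congr_ae (Eventually.of_forall fun p => ?_)
  simp only [abs_mul, abs_of_nonneg hc, mul_pow]

theorem W_smul (a b c : ℝ) (G₀ G₁ G₂ : ℝ × ℝ → ℝ) (u : ℝ) :
    W (fun p => a * G₀ p) (fun p => b * G₁ p) (fun p => c * G₂ p) u
      = (a * b * c) * W G₀ G₁ G₂ u := by
  unfold W
  rw [← integral_const_mul]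
  refine integral_congr_ae (Eventually.of_forall fun p => ?_)
  simp only
  ring

/-- COMB -/
theorem real_of (hB : StBell) (hL : StLim) (hC : StCal) (hW : StW) : StReal := by
  obtain ⟨C, hB⟩ := hB
  obtain ⟨C', hC⟩ := hC
  refine ⟨C' * (C * 3 + 1), fun G₀ G₁ G₂ h₀ h₁ h₂ ε R hε hR => ?_⟩
  set c₀ := I3 G₀ ^ ((1 : ℝ) / 3) with hc₀
  set c₁ := I3 G₁ ^ ((1 : ℝ) / 3) with hc₁
  set c₂ := I3 G₂ ^ ((1 : ℝ) / 3) with hc₂
  have n₀ : 0 ≤ c₀ := Real.rpow_nonneg (I3_nonneg _) _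
  have n₁ : 0 ≤ c₁ := Real.rpow_nonneg (I3_nonneg _) _
  have n₂ : 0 ≤ c₂ := Real.rpow_nonneg (I3_nonneg _) _
  by_cases hz : c₀ * c₁ * c₂ = 0
  · have hw : ∀ u, W G₀ G₁ G₂ u = 0 := by
      intro u
      have := (hW G₀ G₁ G₂ h₀ h₁ h₂).2 u
      rw [← hc₀, ← hc₁, ← hc₂, hz] at this
      exact abs_nonpos_iff.1 this
    simp [hw, hz]
  have hz₀ : c₀ ≠ 0 := fun h => hz (by rw [h]; ring)
  have hz₁ : c₁ ≠ 0 := fun h => hz (by rw [h]; ring)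
  have hz₂ : c₂ ≠ 0 := fun h => hz (by rw [h]; ring)
  have p₀ : 0 < c₀ := lt_of_le_of_ne n₀ (Ne.symm hz₀)
  have p₁ : 0 < c₁ := lt_of_le_of_ne n₁ (Ne.symm hz₁)
  have p₂ : 0 < c₂ := lt_of_le_of_ne n₂ (Ne.symm hz₂)
  have cube : ∀ {x : ℝ}, 0 ≤ x → (x ^ ((1 : ℝ) / 3)) ^ 3 = x := by
    intro x hx
    rw [← Real.rpow_natCast, ← Real.rpow_mul hx]
    norm_num
  have one : ∀ {G : ℝ × ℝ → ℝ}, 0 < I3 G ^ ((1 : ℝ) / 3) →
      I3 (fun p => (I3 G ^ ((1 : ℝ) / 3))⁻¹ * G p) = 1 := by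
    intro G hG
    rw [I3_smul (inv_nonneg.2 hG.le), inv_pow, cube (I3_nonneg G)]
    refine inv_mul_cancel₀ ?_
    intro h0
    rw [h0, Real.zero_rpow (by norm_num)] at hG
    exact lt_irrefl _ hG
  have i₀ := one p₀
  have i₁ := one p₁
  have i₂ := one p₂
  rw [← hc₀] at i₀
  rw [← hc₁] at i₁
  rw [← hc₂] at i₂
  have k₀ : CC (fun p => c₀⁻¹ * G₀ p) := cc_smul h₀
  have k₁ : CC (fun p => c₁⁻¹ * G₁ p) := cc_smul h₁
  have k₂ : CC (fun p => c₂⁻¹ * G₂ p) := cc_smul h₂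
  set w := W (fun p => c₀⁻¹ * G₀ p) (fun p => c₁⁻¹ * G₁ p) (fun p => c₂⁻¹ * G₂ p) with hwdef
  have hw := hW _ _ _ k₀ k₁ k₂
  rw [← hwdef, i₀, i₁, i₂, Real.one_rpow, mul_one, mul_one] at hw
  have hsum : ∀ t : ℝ, 0 < t → ∀ J : ℕ, ∑ j ∈ Finset.range (J + 1), |Ac w (2 ^ j * t)| ≤ C * 3 := by
    intro t ht J
    have hlim : Tendsto (fun m : ℕ => ∑ j ∈ Finset.range (J + 1), |Ad w (m + j) (2 ^ j * t)|)
        atTop (𝓝 (∑ j ∈ Finset.range (J + 1), |Ac w (2 ^ j * t)|)) := by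
      refine tendsto_finsetSum _ fun j _ => ?_
      exact ((hL w hw.1 (2 ^ j * t)).comp (tendsto_add_atTop_nat j)).abs
    refine le_of_tendsto hlim ?_
    filter_upwards [eventually_ge_atTop 2] with m hm
    have := hB _ _ _ k₀ k₁ k₂ t ht m hm J
    rw [← hwdef, i₀, i₁, i₂] at this
    refine this.trans (le_of_eq ?_)
    ring
  have hmain := hC w hw.1 1 (C * 3) hw.2 hsum ε R hε hR
  have hscale : ∀ u, W G₀ G₁ G₂ u = c₀ * c₁ * c₂ * w u := by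
    intro u
    rw [hwdef, W_smul]
    field_simp
  have hint : ∫ u in ε..R, (W G₀ G₁ G₂ u - W G₀ G₁ G₂ (-u)) / u
      = c₀ * c₁ * c₂ * ∫ u in ε..R, (w u - w (-u)) / u := by
    rw [← intervalIntegral.integral_const_mul]
    refine intervalIntegral.integral_congr fun u _ => ?_
    simp only [hscale]
    ring
  rw [hint, abs_mul, abs_of_nonneg (by positivity : 0 ≤ c₀ * c₁ * c₂), mul_comm]
  exact mul_le_mul_of_nonneg_right hmain (by positivity)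

end Vale.Agent.P075.R.H220
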