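import Vale.Agent.P075.R.Defs
import Mathlib

/-!
# P075, Question 1, block LIM: the discrete single scale form converges
-/

namespace Vale.Agent.P075.R.H220

open MeasureTheory Filter Topology Vale.Agent.P075 Vale.Agent.P075.R Set

theorem measurable_rho : Measurable rho := by
  unfold rho
  exact Measurable.ite measurableSet_Iio measurable_const measurable_const

theorem abs_rho (p : ℝ) : |rho p| = 1 := by
  unfold rho
  split_ifs <;> simp

theorem norm_rho_le (p : ℝ) : ‖rho p‖ ≤ 1 := by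
  rw [Real.norm_eq_abs, abs_rho]

theorem ii_rho_mul {g : ℝ → ℝ} (hg : Continuous g) (a b : ℝ) :
    IntervalIntegrable (fun z => rho z * g z) volume a b := by
  rw [intervalIntegrable_iff]
  have h1 : IntegrableOn g (Set.uIoc a b) volume :=
    (intervalIntegrable_iff.1 (hg.intervalIntegrable a b))
  exact h1.bdd_mul measurable_rho.aestronglyMeasurable (Eventually.of_forall norm_rho_le)

/-- the Haar sign splits the integral -/
theorem integral_rho_mul {g : ℝ → ℝ} (hg : Continuous g) :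
    ∫ z in (0 : ℝ)..1, rho z * g z
      = (∫ z in (0 : ℝ)..(1 / 2), g z) - ∫ z in (1 / 2 : ℝ)..1, g z := by
  rw [← intervalIntegral.integral_add_adjacent_intervals (ii_rho_mul hg 0 (1 / 2))
    (ii_rho_mul hg (1 / 2) 1), sub_eq_add_neg, ← intervalIntegral.integral_neg]
  congr 1
  · have hae : ∀ᵐ x : ℝ, x ≠ 1 / 2 := by
      have := Measure.ae_ne (volume : Measure ℝ) (1 / 2)
      simpa using this
    refine intervalIntegral.integral_congr_ae ?_
    filter_upwards [hae] with x hx hxm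
    rw [Set.uIoc_of_le (by norm_num)] at hxm
    have : x < 1 / 2 := lt_of_le_of_ne hxm.2 hx
    rw [show rho x = 1 from if_pos this, one_mul]
  · refine intervalIntegral.integral_congr fun x hx => ?_
    rw [Set.uIcc_of_le (by norm_num)] at hx
    have : ¬ x < 1 / 2 := not_lt.2 hx.1
    rw [show rho x = -1 from if_neg this, neg_one_mul]

theorem continuous_K {g : ℝ → ℝ} (hg : Continuous g) :
    Continuous fun s : ℝ => ∫ z in (0 : ℝ)..1, rho z * g (s + z) := by
  have h : (fun s : ℝ => ∫ z in (0 : ℝ)..1, rho z * g (s + z))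
      = fun s : ℝ => (∫ z in (0 : ℝ)..(1 / 2), g (s + z)) - ∫ z in (1 / 2 : ℝ)..1, g (s + z) := by
    funext s
    exact integral_rho_mul (hg.comp (continuous_const.add continuous_id))
  rw [h]
  refine Continuous.sub ?_ ?_
  · exact intervalIntegral.continuous_parametric_intervalIntegral_of_continuous'
      (f := fun s z => g (s + z)) (hg.comp (continuous_fst.add continuous_snd)) 0 (1 / 2)
  · exact intervalIntegral.continuous_parametric_intervalIntegral_of_continuous'
      (f := fun s z => g (s + z)) (hg.comp (continuous_fst.add continuous_snd)) (1 / 2) 1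

/-- cellwise comparison of an integral with a Riemann sum -/
theorem cell {N : ℕ} (hN : 0 < N) {F : ℝ → ℝ} (hF : IntervalIntegrable F volume 0 1)
    {a : ℕ → ℝ} {δ : ℝ}
    (h : ∀ i < N, ∀ p : ℝ, (i : ℝ) / N ≤ p → p < ((i : ℝ) + 1) / N → |F p - a i| ≤ δ) :
    |(∫ p in (0 : ℝ)..1, F p) - (N : ℝ)⁻¹ * ∑ i ∈ Finset.range N, a i| ≤ δ := by
  have hN' : (0 : ℝ) < N := by exact_mod_cast hN
  have hsub : ∀ i < N, IntervalIntegrable F volume ((i : ℝ) / N) (((i + 1 : ℕ) : ℝ) / N) := by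
    intro i hi
    refine hF.mono_set ?_
    rw [Set.uIcc_of_le zero_le_one, Set.uIcc_of_le (by gcongr; exact_mod_cast Nat.le_succ i)]
    intro x hx
    refine ⟨le_trans (by positivity) hx.1, le_trans hx.2 ?_⟩
    rw [div_le_one hN']
    exact_mod_cast hi
  have hsum : ∫ p in (0 : ℝ)..1, F p
      = ∑ i ∈ Finset.range N, ∫ p in ((i : ℝ) / N)..(((i + 1 : ℕ) : ℝ) / N), F p := by
    rw [intervalIntegral.sum_integral_adjacent_intervals (a := fun i : ℕ => (i : ℝ) / N)
      (fun i hi => hsub i hi)]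
    simp [hN'.ne']
  rw [hsum, Finset.mul_sum, ← Finset.sum_sub_distrib]
  refine (Finset.abs_sum_le_sum_abs _ _).trans ?_
  have hone : ∀ i ∈ Finset.range N,
      |(∫ p in ((i : ℝ) / N)..(((i + 1 : ℕ) : ℝ) / N), F p) - (N : ℝ)⁻¹ * a i| ≤ δ * (N : ℝ)⁻¹ := by
    intro i hi
    have hi' := Finset.mem_range.1 hi
    have hlen : ((i + 1 : ℕ) : ℝ) / N - (i : ℝ) / N = (N : ℝ)⁻¹ := by
      push_cast
      field_simp
      ring
    have hle : (i : ℝ) / N ≤ ((i + 1 : ℕ) : ℝ) / N := by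
      have : (0 : ℝ) < (N : ℝ)⁻¹ := by positivity
      linarith
    have hc : (N : ℝ)⁻¹ * a i = ∫ _p in ((i : ℝ) / N)..(((i + 1 : ℕ) : ℝ) / N), a i := by
      rw [intervalIntegral.integral_const, hlen, smul_eq_mul]
    rw [hc, ← intervalIntegral.integral_sub (hsub i hi') intervalIntegrable_const]
    have hae : ∀ᵐ x : ℝ, x ≠ ((i + 1 : ℕ) : ℝ) / N :=
      Measure.ae_ne (volume : Measure ℝ) _
    have := intervalIntegral.norm_integral_le_of_norm_le_const_ae
      (f := fun p => F p - a i) (a := (i : ℝ) / N) (b := ((i + 1 : ℕ) : ℝ) / N) (C := δ) ?_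
    · rw [hlen, abs_of_pos (inv_pos.2 hN')] at this
      exact this
    · filter_upwards [hae] with x hx hxm
      rw [Set.uIoc_of_le hle] at hxm
      rw [Real.norm_eq_abs]
      refine h i hi' x hxm.1.le ?_
      have := lt_of_le_of_ne hxm.2 hx
      push_cast at this
      exact this
  refine (Finset.sum_le_sum hone).trans ?_
  rw [Finset.sum_const, Finset.card_range, nsmul_eq_mul]
  have : (N : ℝ) * (δ * (N : ℝ)⁻¹) = δ := by
    field_simp
  rw [this]

theorem rho_eq_sg {m i : ℕ} (hm : 1 ≤ m) {p : ℝ} (h1 : (i : ℝ) / (2 ^ m : ℕ) ≤ p)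
    (h2 : p < ((i : ℝ) + 1) / (2 ^ m : ℕ)) : rho p = sg m i := by
  obtain ⟨n, rfl⟩ : ∃ n, m = n + 1 := ⟨m - 1, by omega⟩
  have hpos : (0 : ℝ) < ((2 ^ (n + 1) : ℕ) : ℝ) := by positivity
  rw [div_le_iff₀ hpos] at h1
  rw [lt_div_iff₀ hpos] at h2
  unfold rho sg
  have key : p < 1 / 2 ↔ 2 * i < 2 ^ (n + 1) := by
    constructor
    · intro h
      have : (i : ℝ) < (2 : ℝ) ^ n := by
        calc (i : ℝ) ≤ p * ((2 ^ (n + 1) : ℕ) : ℝ) := h1
          _ < 1 / 2 * ((2 ^ (n + 1) : ℕ) : ℝ) := by gcongr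
          _ = (2 : ℝ) ^ n := by push_cast; ring
      have h' : i < 2 ^ n := by exact_mod_cast this
      rw [pow_succ]
      omega
    · intro h
      have h' : i + 1 ≤ 2 ^ n := by
        rw [pow_succ] at h
        omega
      have h'' : (i : ℝ) + 1 ≤ (2 : ℝ) ^ n := by exact_mod_cast h'
      have : p * ((2 ^ (n + 1) : ℕ) : ℝ) < 1 / 2 * ((2 ^ (n + 1) : ℕ) : ℝ) := by
        calc p * ((2 ^ (n + 1) : ℕ) : ℝ) < (i : ℝ) + 1 := h2
          _ ≤ (2 : ℝ) ^ n := h''
          _ = 1 / 2 * ((2 ^ (n + 1) : ℕ) : ℝ) := by push_cast; ring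
      exact lt_of_mul_lt_mul_right this hpos.le
  by_cases h : p < 1 / 2
  · rw [if_pos h, if_pos (key.1 h)]
  · rw [if_neg h, if_neg (fun h' => h (key.2 h'))]

theorem abs_sg (m i : ℕ) : |sg m i| = 1 := by
  unfold sg
  split_ifs <;> simp

/-- quantitative form -/
theorem abs_Ac_sub_Ad_le {w : ℝ → ℝ} (hw : Continuous w) {t δ : ℝ} {m : ℕ} (hm : 1 ≤ m)
    (h : ∀ x y : ℝ, |x - y| ≤ 3 * |t| / 2 ^ m → |w x - w y| ≤ δ) :
    |Ac w t - Ad w m t| ≤ δ := by
  set N : ℕ := 2 ^ m with hNdef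
  have hN : 0 < N := by positivity
  have hN' : (0 : ℝ) < N := by exact_mod_cast hN
  have hNR : (N : ℝ) = 2 ^ m := by rw [hNdef]; push_cast; rfl
  have hAd : Ad w m t = (N : ℝ)⁻¹ * ∑ i ∈ Finset.range N, ((N : ℝ)⁻¹ * ∑ j ∈ Finset.range N,
      ((N : ℝ)⁻¹ * ∑ l ∈ Finset.range N,
        sg m i * sg m j * sg m l * w (t * (((i : ℝ) + j + l) / 2 ^ m - 3 / 2)))) := by
    unfold Ad
    have h8 : ((8 : ℝ) ^ m)⁻¹ = (N : ℝ)⁻¹ * ((N : ℝ)⁻¹ * (N : ℝ)⁻¹) := by
      rw [hNR, show (8 : ℝ) = 2 * (2 * 2) by norm_num, mul_pow, mul_pow, mul_inv, mul_inv]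
    rw [h8, mul_assoc]
    congr 1
    rw [Finset.mul_sum]
    refine Finset.sum_congr rfl fun i _ => ?_
    rw [mul_assoc]
    congr 1
    rw [Finset.mul_sum]
  have hg0 : Continuous fun s : ℝ => w (t * (s - 3 / 2)) :=
    hw.comp (continuous_const.mul (continuous_id.sub continuous_const))
  have hK1 := continuous_K hg0
  have hK2 := continuous_K hK1
  set J : ℝ → ℝ := fun s => ∫ z in (0 : ℝ)..1, rho z * w (t * (s + z - 3 / 2)) with hJ
  have hJc : Continuous J := hK1
  set L : ℝ → ℝ := fun s => ∫ q in (0 : ℝ)..1, rho q * J (s + q) with hL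
  have hLc : Continuous L := continuous_K hJc
  have hAc : Ac w t = ∫ p in (0 : ℝ)..1, rho p * L p := by
    unfold Ac
    refine intervalIntegral.integral_congr fun p _ => ?_
    simp only [hL, hJ]
    rw [← intervalIntegral.integral_const_mul]
    refine intervalIntegral.integral_congr fun q _ => ?_
    rw [← intervalIntegral.integral_const_mul, ← intervalIntegral.integral_const_mul]
    refine intervalIntegral.integral_congr fun z _ => ?_
    ring
  rw [hAc, hAd]
  refine cell hN (ii_rho_mul hLc 0 1) ?_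
  intro i hi p hp1 hp2
  have hrp : rho p = sg m i := rho_eq_sg hm hp1 hp2
  have h2 : rho p * L p = ∫ q in (0 : ℝ)..1, rho p * (rho q * J (p + q)) := by
    rw [intervalIntegral.integral_const_mul]
  rw [h2]
  refine cell hN ?_ ?_
  · exact (ii_rho_mul (hJc.comp (continuous_const.add continuous_id)) 0 1).const_mul _
  intro j hj q hq1 hq2
  have hrq : rho q = sg m j := rho_eq_sg hm hq1 hq2
  have h3 : rho p * (rho q * J (p + q))
      = ∫ z in (0 : ℝ)..1, rho p * (rho q * (rho z * w (t * (p + q + z - 3 / 2)))) := by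
    rw [intervalIntegral.integral_const_mul, intervalIntegral.integral_const_mul]
  rw [h3]
  refine cell hN ?_ ?_
  · refine IntervalIntegrable.const_mul (IntervalIntegrable.const_mul ?_ _) _
    exact ii_rho_mul (g := fun z => w (t * (p + q + z - 3 / 2)))
      (hw.comp (continuous_const.mul ((continuous_const.add continuous_id).sub
        continuous_const))) 0 1
  intro l hl z hz1 hz2
  have hrz : rho z = sg m l := rho_eq_sg hm hz1 hz2
  rw [hrp, hrq, hrz]
  have e : sg m i * (sg m j * (sg m l * w (t * (p + q + z - 3 / 2))))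
      - sg m i * sg m j * sg m l * w (t * (((i : ℝ) + j + l) / 2 ^ m - 3 / 2))
      = sg m i * sg m j * sg m l * (w (t * (p + q + z - 3 / 2))
        - w (t * (((i : ℝ) + j + l) / 2 ^ m - 3 / 2))) := by ring
  rw [e, abs_mul, abs_mul, abs_mul, abs_sg, abs_sg, abs_sg, one_mul, one_mul, one_mul]
  refine h _ _ ?_
  have e2 : t * (p + q + z - 3 / 2) - t * (((i : ℝ) + j + l) / 2 ^ m - 3 / 2)
      = t * ((p - (i : ℝ) / N) + (q - (j : ℝ) / N) + (z - (l : ℝ) / N)) := by
    rw [← hNR]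
    field_simp
    ring
  rw [e2, abs_mul]
  have b1 : 0 ≤ p - (i : ℝ) / N := by linarith
  have b2 : 0 ≤ q - (j : ℝ) / N := by linarith
  have b3 : 0 ≤ z - (l : ℝ) / N := by linarith
  have c1 : p - (i : ℝ) / N ≤ 1 / N := by
    rw [add_div] at hp2
    linarith
  have c2 : q - (j : ℝ) / N ≤ 1 / N := by
    rw [add_div] at hq2
    linarith
  have c3 : z - (l : ℝ) / N ≤ 1 / N := by
    rw [add_div] at hz2
    linarith
  rw [abs_of_nonneg (a := (p - (i : ℝ) / N) + (q - (j : ℝ) / N) + (z - (l : ℝ) / N))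
    (by linarith)]
  calc |t| * ((p - (i : ℝ) / N) + (q - (j : ℝ) / N) + (z - (l : ℝ) / N))
      ≤ |t| * (3 * (1 / N)) := by
        refine mul_le_mul_of_nonneg_left (by linarith) (abs_nonneg t)
    _ = 3 * |t| / 2 ^ m := by
        rw [← hNR]
        ring

/-- LIM -/
theorem stLim : StLim := by
  intro w hw t
  have huc : UniformContinuous w := hw.2.uniformContinuous_of_continuous hw.1
  rw [Metric.tendsto_atTop]
  intro ε hε
  rw [Metric.uniformContinuous_iff] at huc
  obtain ⟨δ, hδ, hd⟩ := huc (ε / 2) (by positivity)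
  have hlim : Tendsto (fun m : ℕ => 3 * |t| / (2 : ℝ) ^ m) atTop (𝓝 0) := by
    have h1 : Tendsto (fun m : ℕ => (2 : ℝ) ^ m) atTop atTop :=
      tendsto_pow_atTop_atTop_of_one_lt (by norm_num)
    exact tendsto_const_nhds.div_atTop h1
  obtain ⟨M, hM⟩ := (Metric.tendsto_atTop.1 hlim) δ hδ
  refine ⟨max M 1, fun m hm => ?_⟩
  have hm1 : 1 ≤ m := le_trans (le_max_right _ _) hm
  have hmM : M ≤ m := le_trans (le_max_left _ _) hm
  have h1 := hM m hmM
  rw [Real.dist_eq, sub_zero, abs_of_nonneg (by positivity)] at h1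
  rw [Real.dist_eq, abs_sub_comm]
  refine lt_of_le_of_lt (abs_Ac_sub_Ad_le hw.1 hm1 (δ := ε / 2) ?_) (by linarith)
  intro x y hxy
  have := hd (a := x) (b := y) (by rw [Real.dist_eq]; exact lt_of_le_of_lt hxy h1)
  rw [Real.dist_eq] at this
  exact this.le

end Vale.Agent.P075.R.H220
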